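import Vale.Agent.H22.ST.L12

/-!
# The Euclidean Steinitz constant: `S_2(d) ≤ C √d (1 + log d)²`
-/

noncomputable section

open Finset

namespace Vale.Agent.Results.P262.EuclideanSteinitz

/-- the largest norm of a partial sum of `v` rearranged by `π` -/
def maxPartial {d N : ℕ} (v : Fin N → EuclideanSpace ℝ (Fin d)) (π : Equiv.Perm (Fin N)) : ℝ :=
  (Finset.range (N + 1)).sup' ⟨0, Finset.mem_range.mpr (Nat.succ_pos N)⟩
    (fun k => ‖∑ i ∈ univ.filter (fun i : Fin N => (i : ℕ) < k), v (π i)‖)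

/-- `β(v_1, …, v_N)`: the minimum of `maxPartial` over all rearrangements -/
def beta {d N : ℕ} (v : Fin N → EuclideanSpace ℝ (Fin d)) : ℝ :=
  (Finset.univ : Finset (Equiv.Perm (Fin N))).inf' ⟨1, Finset.mem_univ 1⟩ (maxPartial v)

/-- the Euclidean Steinitz constant `S_2(d)` -/
def S2 (d : ℕ) : ℝ :=
  sSup {b : ℝ | ∃ (N : ℕ) (v : Fin N → EuclideanSpace ℝ (Fin d)),
    (∀ i, ‖v i‖ ≤ 1) ∧ ∑ i, v i = 0 ∧ b = beta v}

/-- There is an absolute constant `C` with `S_2(d) ≤ C √d (1 + log d)²` for all `d ≥ 1`; moreover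
every zero-sum family in the unit ball has a rearrangement with this bound. -/
theorem result : ∃ C : ℝ, 0 < C ∧ ∀ d : ℕ, 1 ≤ d →
    S2 d ≤ C * Real.sqrt d * (1 + Real.log d) ^ 2 ∧
    ∀ (N : ℕ) (v : Fin N → EuclideanSpace ℝ (Fin d)), (∀ i, ‖v i‖ ≤ 1) → ∑ i, v i = 0 →
      ∃ π : Equiv.Perm (Fin N), ∀ k ≤ N,
        ‖∑ i ∈ univ.filter (fun i : Fin N => (i : ℕ) < k), v (π i)‖
          ≤ C * Real.sqrt d * (1 + Real.log d) ^ 2 := by
  obtain ⟨C, hC, h⟩ := Vale.Agent.H22.ST.main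
  refine ⟨C, hC, fun d hd => ⟨?_, fun N v hv hs => h d N hd v hv hs⟩⟩
  have hbound : 0 ≤ C * Real.sqrt d * (1 + Real.log d) ^ 2 := by positivity
  apply Real.sSup_le _ hbound
  rintro b ⟨N, v, hv, hs, rfl⟩
  obtain ⟨π, hπ⟩ := h d N hd v hv hs
  unfold beta
  refine (Finset.inf'_le _ (Finset.mem_univ π)).trans ?_
  unfold maxPartial
  apply Finset.sup'_le
  intro k hk
  exact hπ k (Nat.lt_succ_iff.mp (Finset.mem_range.mp hk))

end Vale.Agent.Results.P262.EuclideanSteinitz
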